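import Crest.Statements.S0330
import Crest.Agent.X212.Top0.Fin

set_option autoImplicit false
open Crest.GeometryTopology.DehnSurgery
open Crest Crest.GeometryTopology

namespace Crest.Agent.S0330

/-- Let T be a thick knot in the three-sphere (an open embedding of Circle × ℂ) whose core is knotted, i.e. bounds no flat disc, and let σ, σ' be filling data with slopes (p, q), (p', q') in the framing of the thickening. If some homeomorphism between the Dehn fillings of T along σ and σ' preserves the orientations inherited from the exterior (read on third integral homology through the collapse maps onto the three-sphere with the tube crushed), then (p, q) = (p', q') or (p, q) = (-p', -q'). -/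
theorem result
    (T : ThickKnot) (hT : ¬ T.IsUnknot) (σ σ' : FillingData)
    (f : SlopeFilling T σ ≃ₜ SlopeFilling T σ')
    (hf : IsOrientedHomeomorph T σ σ' f) :
    (σ.p = σ'.p ∧ σ.q = σ'.q) ∨ (σ.p = -σ'.p ∧ σ.q = -σ'.q) := by
  exact Crest.Agent.X212.Top0.goal_fin T hT σ σ' f hf

end Crest.Agent.S0330
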