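import Crest.Statements.S0399
import Crest.Agent.X261.Sk.Done

set_option autoImplicit false
open scoped Manifold ContDiff
open Crest.CxGeometry
open Crest Crest.AlgGeometry

namespace Crest.Agent.S0399

/-- Let X be a compact connected Kähler manifold of complex dimension n which is special: there is no p with 1 ≤ p ≤ n and no holomorphic line bundle L on X with a non-zero sheaf map L → Ωᵖ (a non-zero holomorphic p-form with values in the dual of L) and Iitaka dimension κ(L) = p. Then the fundamental group of X at any base point has an abelian subgroup of finite index. -/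
theorem result
    {n : ℕ} {X : Type*} [TopologicalSpace X] [ChartedSpace (Cn n) X]
    [IsManifold 𝓘(ℂ, Cn n) ω X] [CompactSpace X] [T2Space X] [ConnectedSpace X]
    (hK : IsKaehler n X)
    (hspecial : ∀ p : ℕ, 1 ≤ p → p ≤ n → ∀ L : HolLineBundle n X,
      (∃ θ : L.ι → Form n X p, L.IsTwistedFormFamily (-1) p θ ∧ ∃ i x, θ i x ≠ 0) →
        ¬ L.HasIitakaDim p)
    (x₀ : X) :
    ∃ H : Subgroup (FundamentalGroup X x₀), H.FiniteIndex ∧ ∀ a ∈ H, ∀ b ∈ H, a * b = b * a := by
  exact Crest.Agent.X261.E0.of_main Crest.Agent.X261.Sk.mainStmt hK hspecial x₀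

end Crest.Agent.S0399
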