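import Crest.Statements.S0400
import Crest.Agent.X262.Top.Final

set_option autoImplicit false
open MvPolynomial AlgebraicGeometry
open scoped TensorProduct
open Crest Crest.AlgGeometry

namespace Crest.Agent.S0400

/-- There is a homogeneous cubic form F in six complex variables with smooth projective zero locus X (at every non-zero zero of F some partial derivative of F is non-zero) such that the affine chart x₀ = 1 of X is not rational over Spec ℂ, while the standard affine chart of the scheme of lines on X (lines not meeting x₀ = x₁ = 0) is birational over Spec ℂ to the symmetric square of an affine surface: the spectrum of a finitely generated ℂ-algebra that is a domain of Krull dimension two. -/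
theorem result :
    ∃ F : MvPolynomial (Fin 6) ℂ,
      F.IsHomogeneous 3 ∧
      (∀ p : Fin 6 → ℂ, p ≠ 0 → MvPolynomial.eval p F = 0 →
        ∃ i : Fin 6, MvPolynomial.eval p (MvPolynomial.pderiv i F) ≠ 0) ∧
      ¬ Scheme.IsRationalOver
          (Crest.AlgGeometry.toSpecComplex (Crest.AlgGeometry.cubicAffineChart F)) ∧
      ∃ (A : Type) (_ : CommRing A) (_ : Algebra ℂ A),
        IsDomain A ∧ Algebra.FiniteType ℂ A ∧ ringKrullDim A = 2 ∧
        Scheme.BirationalOver (Crest.AlgGeometry.toSpecComplex (Crest.AlgGeometry.fanoChart F))
          (Crest.AlgGeometry.toSpecComplex ↥(Crest.AlgGeometry.symmSquare A)) := by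
  exact Crest.Agent.X262.Top.Final.main

end Crest.Agent.S0400
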